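import Vale.Agent.P165.H161.Fin

open scoped ENNReal

namespace Vale.Agent.Results.P165.ExponentialDecay

open Vale.Agent.P165

universe u

/-- **Decay of connections beyond `p_c` on nonamenable graphs.** Bernoulli bond percolation on
every infinite, connected, locally finite, quasi-transitive, nonamenable graph satisfies
`p_c < p_u` (Benjamini-Schramm), and more: the two-point function decays exponentially in the
graph distance, uniformly for all `p ≤ p₁` with some `p₁ > p_c`; and for every `1 < q < ∞` the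
two-point matrix is a bounded operator on `ℓ^q(V)`, uniformly for all `p ≤ p₁` with some
`p₁ > p_c`. -/
theorem result {V : Type u} [Infinite V] (G : SimpleGraph V) [G.LocallyFinite]
    (hG : G.Connected) (hqt : IsQuasiTransitive G) (hna : 0 < vertexCheeger G) :
    pc G < pu G ∧
    (∃ p₁ c C : ℝ, pc G < p₁ ∧ 0 < c ∧ ∀ p : unitInterval, (p : ℝ) ≤ p₁ → ∀ x y : V,
      twoPoint G p x y ≤ ENNReal.ofReal (C * Real.exp (-(c * G.dist x y)))) ∧
    ∀ q : ℝ, 1 < q → ∃ p₁ M : ℝ, pc G < p₁ ∧ ∀ p : unitInterval, (p : ℝ) ≤ p₁ →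
      ∀ f : V → ℝ≥0∞, ∑' x, (∑' y, twoPoint G p x y * f y) ^ q ≤
        ENNReal.ofReal M * ∑' y, f y ^ q := by
  obtain ⟨⟨-, h1, h2⟩, -, -⟩ := H794.main_universe G hG hqt hna
  exact ⟨h1.trans_le h2, H161.main_universe G hG hqt hna⟩

end Vale.Agent.Results.P165.ExponentialDecay
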