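import Vale.Agent.P165.H794.Main

open scoped ENNReal

namespace Vale.Agent.Results.P165.L2Boundedness

open Vale.Agent.P165

universe u

/-- **`L²` boundedness on nonamenable graphs.** Bernoulli bond percolation on every infinite,
connected, locally finite, quasi-transitive, nonamenable graph satisfies `p_c < p_u`
(Benjamini-Schramm), and more: `0 < p_c < p_{2→2} ≤ p_u`; the two-point operator is bounded on
`ℓ²` and the triangle diagram is bounded, uniformly for `p ≤ p₁` with some `p₁ > p_c`; and the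
susceptibility is of mean-field order `(p_c - p)⁻¹`. -/
theorem result {V : Type u} [Infinite V] (G : SimpleGraph V) [G.LocallyFinite]
    (hG : G.Connected) (hqt : IsQuasiTransitive G) (hna : 0 < vertexCheeger G) :
    pc G < pu G ∧
    (0 < pc G ∧ pc G < pTwoTwo G ∧ pTwoTwo G ≤ pu G) ∧
    (∃ p₁ M : ℝ, pc G < p₁ ∧ ∀ p : unitInterval, (p : ℝ) ≤ p₁ →
      NormTwoLe G p M ∧ ∀ x, triangle G p x ≤ ENNReal.ofReal (M ^ 3)) ∧
    ∃ c C : ℝ, 0 < c ∧ 0 < C ∧ ∀ p : unitInterval, (p : ℝ) < pc G → ∀ x,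
      ENNReal.ofReal (c / (pc G - p)) ≤ susceptibility G p x ∧
      susceptibility G p x ≤ ENNReal.ofReal (C / (pc G - p)) := by
  obtain ⟨⟨h0, h1, h2⟩, h3, h4⟩ := H794.main_universe G hG hqt hna
  exact ⟨h1.trans_le h2, ⟨h0, h1, h2⟩, h3, h4⟩

end Vale.Agent.Results.P165.L2Boundedness
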