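import Vale.Agent.P165.H161.MK6

open scoped ENNReal

namespace Vale.Agent.Results.P165.MeanFieldExponents

open Vale.Agent.P165

universe u

/-- **Mean-field critical behaviour on nonamenable graphs.** Bernoulli bond percolation on every
infinite, connected, locally finite, quasi-transitive, nonamenable graph satisfies `p_c < p_u`
(Benjamini-Schramm), and its behaviour at and around `p_c` is mean-field in the strongest sense
(up to constants, for all parameters):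
* `c (p - p_c)₊ ≤ P_p(|K_x| = ∞) ≤ C (p - p_c)₊` for all `p` (`β = 1`);
* `P_p(n ≤ |K_x| < ∞) ≤ C n^{-1/2} e^{-c (p - p_c)² n}` for all `p` and `n ≥ 1`, with the matching
  lower bound `c n^{-1/2}` for `n ≤ c (p - p_c)⁻²` (`δ = 2` and the scaling window);
* `E_p[|K_x|^k ; |K_x| < ∞] ≤ C_k |p - p_c|^{-(2 k - 1)}` for all `k ≥ 1` and `p ≠ p_c`, with the
  matching lower bound for all `p ≤ p₁`, some `p₁ > p_c` (`γ = γ' = 1`, gap exponent `2`);
* the probability that `K_x` is finite and reaches graph distance `n`, and the probability that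
  `K_x` is finite and has intrinsic radius at least `n`, are at most `(C / n) e^{-c |p - p_c| n}`
  for all `p` and at least `c / n` for `n ≤ c |p - p_c|⁻¹` (one-arm exponents `1`);
* matching lower bounds `c n^{-1/2} e^{-C (p - p_c)² n}` and `(c / n) e^{-C |p - p_c| n}` for all
  `n ≥ 1`, uniformly for `p` in compact subsets of `(0, 1)` (correlation length
  `≍ |p - p_c|⁻¹`, correlation volume `≍ |p - p_c|⁻²`). -/
theorem result {V : Type u} [Infinite V] (G : SimpleGraph V) [G.LocallyFinite]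
    (hG : G.Connected) (hqt : IsQuasiTransitive G) (hna : 0 < vertexCheeger G) :
    pc G < pu G ∧
    (∃ c C : ℝ, 0 < c ∧ 0 < C ∧ ∀ (p : unitInterval) (x : V),
      ENNReal.ofReal (c * (p - pc G)) ≤ percProb G p x ∧
      percProb G p x ≤ ENNReal.ofReal (C * (p - pc G))) ∧
    (∃ c C : ℝ, 0 < c ∧ 0 < C ∧ ∀ (p : unitInterval) (x : V) (n : ℕ), 1 ≤ n →
      finTailProb G p x n ≤
        ENNReal.ofReal (C / √(n : ℝ) * Real.exp (-(c * (p - pc G) ^ 2 * n))) ∧
      ((n : ℝ) * (p - pc G) ^ 2 ≤ c →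
        ENNReal.ofReal (c / √(n : ℝ)) ≤ finTailProb G p x n)) ∧
    (∃ p₁ : ℝ, pc G < p₁ ∧ ∀ k : ℕ, 1 ≤ k → ∃ c C : ℝ, 0 < c ∧ 0 < C ∧
      ∀ p : unitInterval, (p : ℝ) ≠ pc G → ∀ x : V,
        finMoment G p x k ≤ ENNReal.ofReal (C / |(p : ℝ) - pc G| ^ (2 * k - 1)) ∧
        (p ≤ p₁ → ENNReal.ofReal (c / |(p : ℝ) - pc G| ^ (2 * k - 1)) ≤ finMoment G p x k)) ∧
    (∃ c C : ℝ, 0 < c ∧ 0 < C ∧ ∀ (p : unitInterval) (x : V) (n : ℕ), 1 ≤ n →
      finArmProb G p x n ≤ finRadiusTail G p x n ∧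
      finRadiusTail G p x n ≤ ENNReal.ofReal (C / n * Real.exp (-(c * |(p : ℝ) - pc G| * n))) ∧
      ((n : ℝ) * |(p : ℝ) - pc G| ≤ c → ENNReal.ofReal (c / n) ≤ finArmProb G p x n)) ∧
    ∀ a b : ℝ, 0 < a → b < 1 → ∃ c C : ℝ, 0 < c ∧ 0 < C ∧
      ∀ p : unitInterval, a ≤ p → p ≤ b → ∀ (x : V) (n : ℕ), 1 ≤ n →
        ENNReal.ofReal (c / √(n : ℝ) * Real.exp (-(C * (p - pc G) ^ 2 * n))) ≤
          finTailProb G p x n ∧
        ENNReal.ofReal (c / n * Real.exp (-(C * |(p : ℝ) - pc G| * n))) ≤ finArmProb G p x n := by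
  obtain ⟨⟨-, h1, h2⟩, -, -⟩ := H794.main_universe G hG hqt hna
  obtain ⟨c, C, K, hc, hC, hA⟩ := H161.MF.armFullC G hG hqt hna
  exact ⟨h1.trans_le h2, H161.MF.thetaC G hG hqt hna, H161.MF.finTailC G hG hqt hna,
    H161.MF.finMomC G hG hqt hna,
    ⟨c, C, hc, hC, fun p x n hn => ⟨(hA p x n hn).1, (hA p x n hn).2.1, (hA p x n hn).2.2.1⟩⟩,
    H161.MF.sharpArmC G hG hqt hna⟩

end Vale.Agent.Results.P165.MeanFieldExponents
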